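import Vale.Agent.H66.CT.PeelRed
import Vale.Agent.H55.CT.SymPeel

/-!
P328: the edge-average monotonicity of the defect (reduction only).

Setting of `Vale/Agent/H66/CT/PeelRed.lean` and `Vale/Agent/H55/CT/SymPeel.lean`: a class
`Box n s (ρ + 1)`, two distinct columns `a, b` with caps at least one, the peeled class
`Box n (peelCap s a b) ρ` (its points are the edges of the lines of the pair `a, b`) and the
edge average `edgeAvg a b ha hb f` (the mean of `f` over the two ends of an edge).

The defect of a function is `slackB f - 2 * devB f` (slack minus twice the squared deviation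
from the mean).  `XTAt` says that the defect does not increase under the edge average: the
defect of `edgeAvg f` on the peeled class is at most the defect of `f`.  `XTHyp` asks for such
a pair in every class with at least three columns, no column of cap `0` and `0 < ρ + 1 < ∑ s`.
Under `XTHyp` the defect of every class is nonnegative (induction on the number of columns and
on `ρ`), which gives the Poincare inequality and the mixing time bound of the `2 x 2`
heat-bath chain.

WARNING (exact-rational counterexamples posted in the project thread): `XTHyp` is a FALSE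
hypothesis.  `XTAt` fails for the pair of columns with caps 40 and 80 in the class with caps
40, 60, 80 and `ρ + 1 = 90`, and it fails for every pair of columns in the classes with caps
88, 88, 88 and `ρ + 1 = 99`, caps 120, 120, 120 and `ρ + 1 = 138`, caps 140, 280, 280 and
`ρ + 1 = 350`.  So `xt_slack` and `main_xt` are implications from a false premise: they must
not be cited and no hand-in uses them.  The file is kept only because deleting landed files is
not allowed.
-/

namespace Vale.Agent.H82.CT

open Finset Vale.Agent.H90 Vale.Agent.H88.CT Vale.Agent.H91.CT Vale.Agent.H14.CT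
  Vale.Agent.H2.CT Vale.Agent.H66.CT Vale.Agent.H55.CT

variable {n : ℕ}

/-- The edge-average monotonicity of the defect for the class `Box n s (ρ + 1)` and the pair of
columns `a, b`. -/
def XTAt (s : Fin n → ℕ) (ρ : ℕ) (a b : Fin n) (ha : 1 ≤ s a) (hb : 1 ≤ s b) : Prop :=
  ∀ f : Box n s (ρ + 1) → ℝ,
    slackB (edgeAvg a b ha hb f) - 2 * devB (edgeAvg a b ha hb f) ≤ slackB f - 2 * devB f

/-- The edge-average hypothesis: in every class with at least three columns, no column of cap
`0` and `0 < ρ + 1 < ∑ s`, the defect does not increase under the edge average of some pair of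
distinct columns. -/
def XTHyp : Prop :=
  ∀ (n : ℕ), 3 ≤ n → ∀ (s : Fin n → ℕ) (ρ : ℕ) (hs : ∀ k, 1 ≤ s k), ρ + 1 < ∑ k, s k →
    ∃ a b : Fin n, a ≠ b ∧ XTAt s ρ a b (hs a) (hs b)

/-- The induction on `ρ` for classes with at least three columns. -/
theorem xt_slack_succ (h : XTHyp) {m : ℕ} (hm : 3 ≤ m + 1)
    (ih : ∀ (s : Fin m → ℕ) (ρ : ℕ) (f : Box m s ρ → ℝ), 2 * devB f ≤ slackB f) :
    ∀ (ρ : ℕ) (s : Fin (m + 1) → ℕ) (f : Box (m + 1) s ρ → ℝ), 2 * devB f ≤ slackB f := by
  intro ρ
  induction ρ with
  | zero =>
    intro s f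
    exact slack_subsingleton (box_subsingleton_zero s) f
  | succ ρ ihρ =>
    intro s f
    by_cases hdead : ∃ c, s c = 0
    · obtain ⟨c, hc⟩ := hdead
      exact slack_dead ih c hc f
    · have hs : ∀ k, 1 ≤ s k := by
        intro k
        by_contra hk
        exact hdead ⟨k, by omega⟩
      rcases Nat.lt_or_ge (ρ + 1) (∑ k, s k) with hlt | hge
      · obtain ⟨a, b, _, hX⟩ := h (m + 1) hm s ρ hs hlt
        have h1 := hX f
        have h2 := ihρ (peelCap s a b) (edgeAvg a b (hs a) (hs b) f)
        linarith
      · exact slack_subsingleton (box_subsingleton_full s (ρ + 1) hge) f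

/-- Under the edge-average hypothesis the slack of every class is at least twice the squared
deviation from the mean. -/
theorem xt_slack (h : XTHyp) :
    ∀ (n : ℕ) (s : Fin n → ℕ) (ρ : ℕ) (f : Box n s ρ → ℝ), 2 * devB f ≤ slackB f := by
  intro n
  induction n with
  | zero =>
    intro s ρ f
    exact slack_subsingleton (box_subsingleton (by omega) s ρ) f
  | succ m ih =>
    intro s ρ f
    rcases Nat.lt_or_ge (m + 1) 2 with h1 | h2
    · exact slack_subsingleton (box_subsingleton (by omega) s ρ) f
    · rcases Nat.eq_or_lt_of_le h2 with e2 | h3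
      · obtain rfl : m = 1 := by omega
        rw [slack_two_dev]
      · exact xt_slack_succ h (by omega) ih ρ s f

/-- Conditional main theorem (edge-average route): under the edge-average hypothesis, for all
`m, n ≥ 2` and all margins the `2 x 2` heat-bath chain satisfies the Poincare inequality with
constant `δ / (m (m - 1) n (n - 1))` for every `0 < δ ≤ 2`, and its lazy version mixes within
the corresponding time. -/
theorem main_xt (h : XTHyp) {m n : ℕ} (hm : 2 ≤ m) (hn : 2 ≤ n)
    (r : Fin m → ℕ) (c : Fin n → ℕ) (δ : ℝ) (hδ0 : 0 < δ) (hδ2 : δ ≤ 2) :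
    (∀ f : Omega r c → ℝ, ∑ X, f X = 0 →
      δ / ((m : ℝ) * (m - 1) * ((n : ℝ) * (n - 1))) * ∑ X, f X ^ 2
        ≤ (1 / 2 : ℝ) * ∑ X, ∑ Y, blockChain r c X Y * (f X - f Y) ^ 2) ∧
    ∀ (η : ℝ), 0 < η → ∀ t : ℕ,
      2 * ((m : ℝ) * (m - 1) * ((n : ℝ) * (n - 1))) / δ
        * ((m : ℝ) * ∑ j, Real.log ((c j : ℝ) + 1) + 2 * Real.log (1 / η)) ≤ t →
      ∀ X : Omega r c,
        (1 / 2 : ℝ) * ∑ Y, |(((1 / 2 : ℝ) • (1 + blockChain r c)) ^ t) X Y
          - 1 / (Fintype.card (Omega r c) : ℝ)| ≤ η := by
  have hs : SurHypG (fun _ => 1) (fun k => 2 * (fun _ : ℕ => (1 : ℝ)) k) :=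
    surHypG_of_slack (fun _ => 1) (fun k s ρ f => by
      have h1 := xt_slack h k s ρ f
      linarith)
  refine main_surG (fun _ => 1) (fun k => 2 * (fun _ : ℕ => (1 : ℝ)) k) hs
    (fun _ => le_refl _) hm hn r c δ hδ0 hδ2 ?_ ?_
  · show δ ≤ 2 * 1 + 2 * (1 - 1)
    linarith
  · show δ ≤ 2 * 1 + 2 * (1 - 1)
    linarith

end Vale.Agent.H82.CT
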